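import Vale.Agent.P286ER1.Dev
import Vale.Agent.P286ER.IF
import Vale.Agent.P286.H527.Eps1
import Vale.Agent.P286.H527.BrCart

/-!
# Cartesian complexes have no cohomology supported on a bad locus
-/

namespace Vale.Agent.P286ER1

open CategoryTheory LaurentPolynomial Vale.Agent.P286 Vale.Agent.P286ER

noncomputable section

theorem tors : TORS := fun _ _ _ P hP I H => kill_of_primes P hP I H

/-- The site defined by a good test category. -/
def site (S : St.TSite) (h : Good S) : Site where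
  C := S.C
  cat := S.cat
  R X := S.R X
  res := S.f
  res_id := h.f_id
  res_comp := h.f_comp
  dl φ := (h.unit φ).unit
  dl_comp φ ψ := Units.ext (h.dl_comp φ ψ)
  cen := S.cen

theorem toT_site (S : St.TSite) (h : Good S) : (site S h).toT S.s = S := rfl

/-- The transport of a vector field along an isomorphism. -/
def conjD {A B : Type} [CommRing A] [Algebra ℂ A] [CommRing B] [Algebra ℂ B] (j : A ≃ₐ[ℂ] B)
    (v : Derivation ℂ A A) : Derivation ℂ B B :=
  Derivation.mk' (j.toLinearMap ∘ₗ v.toLinearMap ∘ₗ j.symm.toLinearMap) fun x y => by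
    change j (v (j.symm (x * y))) = x * j (v (j.symm y)) + y * j (v (j.symm x))
    rw [map_mul, Derivation.leibniz, smul_eq_mul, smul_eq_mul, map_add, map_mul, map_mul,
      j.apply_symm_apply, j.apply_symm_apply]

theorem conjD_apply {A B : Type} [CommRing A] [Algebra ℂ A] [CommRing B] [Algebra ℂ B]
    (j : A ≃ₐ[ℂ] B) (v : Derivation ℂ A A) (a : A) : conjD j v (j a) = j (v a) :=
  congrArg (fun x => j (v x)) (j.symm_apply_apply a)

/-- The basis of the image of the ring of Laurent polynomials. -/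
def lauE {A B : Type} [CommRing A] [Algebra ℂ A] [CommRing B] [Algebra ℂ B] (f : A →ₐ[ℂ] B)
    (j : A[T;T⁻¹] ≃ₐ[ℂ] B) (h : ∀ a, f a = j (C a)) :
    letI : Module A B := Module.compHom B f.toRingHom
    (ℤ →₀ A) ≃ₗ[A] B :=
  letI : Module A B := Module.compHom B f.toRingHom
  { AddMonoidAlgebra.coeffAddEquiv.symm.trans j.toRingEquiv.toAddEquiv with
    map_smul' := fun b x => by
      change j (AddMonoidAlgebra.ofCoeff (b • x)) = f b * j (AddMonoidAlgebra.ofCoeff x)
      rw [h, ← map_mul, ← LaurentPolynomial.smul_eq_C_mul]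
      rfl }

/-- A one-parameter group without resonance forces acyclicity. -/
theorem acyclic_gm {T : Site} {s : ℂ} (hs : ∀ m : ℤ, m ≠ 0 → ∀ k : ℤ, (k : ℂ) + s * m ≠ 0)
    {K : TCx T s} (hK : Cartesian K) {Y : T.C} (hY : GmAt (T.toT s) Y) (j : ℤ) (z : K.obj j Y)
    (hz : K.Cyc Y j z) : K.Bd Y j z := by
  obtain ⟨Z, ι, σ, σ', e, m, hm, h1, h2, h3, h4, h5⟩ :
      ∃ (Z : T.C) (ι : Y ⟶ Z) (σ σ' : Z ⟶ Z) (e : (T.R Y)[T;T⁻¹] ≃ₐ[ℂ] T.R Z) (m : ℤ), m ≠ 0 ∧
        (∀ a, T.res ι a = e (C a)) ∧ (T.dl ι : T.R Z) = 1 ∧ T.res σ = AlgHom.id ℂ (T.R Z) ∧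
        σ ≫ σ' = 𝟙 Z ∧ (T.dl σ : T.R Z) = e (LaurentPolynomial.T m) := hY
  have he : ∀ k : ℤ, conjD e (eulerD (T.R Y)) (e (LaurentPolynomial.T k)) =
      (k : T.R Z) * e (LaurentPolynomial.T k) := fun k => by
    rw [conjD_apply, eulerD_T, map_mul, map_intCast]
  let D : GmData T Y Z :=
    { ι := ι
      e := fun k => e (LaurentPolynomial.T k)
      E := lauE (T.res ι) e h1
      hE := fun _ => rfl
      e_zero := map_one e
      v := conjD e (eulerD (T.R Y))
      v_res := fun a => (congrArg _ (h1 a)).trans ((conjD_apply e _ _).trans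
        ((congrArg e (eulerD_C _ a)).trans (map_zero e)))
      v_e := he
      v_dl := (congrArg _ h2).trans (Derivation.map_one_eq_zero _)
      σ := σ
      res_σ := h3
      c := m
      v_dlσ := (congrArg _ h5).trans ((he m).trans (by
        rw [map_intCast]
        exact congrArg _ h5.symm)) }
  exact D.acyclic hK σ' h4 (hs m hm) j z hz

/-- A homomorphism with the kernel `p` and the image `(A / p)[1 / h]`. -/
theorem exists_loc {A B : Type} [CommRing A] [CommRing B] (f : A →+* B) (p : Ideal A) (h : A)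
    (h1 : ∀ a, f a = 0 ↔ a ∈ p) (h2 : IsUnit (f h)) (h3 : ∀ b, ∃ (a : A) (n : ℕ), b * f h ^ n = f a) :
    letI : Module A B := Module.compHom B f
    ∃ u : (A ⧸ p) →ₗ[A] B, IsLocalizedModule (Submonoid.powers h) u := by
  let : Module A B := Module.compHom B f
  have hB : ∀ (a : A) (x : B), a • x = f a * x := fun _ _ => rfl
  let g : A →ₗ[A] B :=
    { toFun := f
      map_add' := map_add f
      map_smul' := fun a x => map_mul f a x }
  refine ⟨Submodule.liftQ p g fun a ha => (h1 a).2 ha, ?_, ?_, ?_⟩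
  · rintro ⟨_, n, rfl⟩
    obtain ⟨c, hc⟩ := h2.pow n
    rw [← map_pow] at hc
    rw [Module.End.isUnit_iff]
    refine ⟨fun x y hxy => ?_, fun y => ⟨((c⁻¹ : Bˣ) : B) * y, ?_⟩⟩
    · have h4 : (h ^ n) • x = (h ^ n) • y := hxy
      rw [hB, hB, ← hc] at h4
      exact c.isUnit.mul_left_cancel h4
    · change (h ^ n) • (((c⁻¹ : Bˣ) : B) * y) = y
      rw [hB, ← hc, Units.mul_inv_cancel_left]
  · intro b
    obtain ⟨a, n, e⟩ := h3 b
    refine ⟨⟨Submodule.Quotient.mk a, ⟨h ^ n, n, rfl⟩⟩, ?_⟩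
    change (h ^ n) • b = f a
    rw [hB, map_pow, mul_comm, e]
  · intro x y hxy
    obtain ⟨x, rfl⟩ := Submodule.Quotient.mk_surjective _ x
    obtain ⟨y, rfl⟩ := Submodule.Quotient.mk_surjective _ y
    have h4 : f x = f y := hxy
    refine ⟨1, congrArg _ ((Submodule.Quotient.eq p).2 ((h1 _).1 ?_))⟩
    rw [map_sub, h4, sub_self]

theorem kill_site {T : Site} {s : ℂ} (hs : ∀ m : ℤ, m ≠ 0 → ∀ k : ℤ, (k : ℂ) + s * m ≠ 0)
    {K : TCx T s} (hK : Cartesian K) (X : T.C) (I : Set (T.R X))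
    (hI : ∀ p : Ideal (T.R X), p.IsPrime → I ⊆ p → Bad (T.toT s) X p)
    (P : MCx (T.R X)) (p : ∀ i, P.X i → K.obj i X)
    (hp : St.IsFlatRes P (fun _ a x => a • x) (fun i j => K.d X i j) p)
    (hq : ∀ (Y : T.C) (φ : X ⟶ Y), ∃ q, St.IsBaseCh (T.res φ).toRingHom P
      (K := fun i => K.obj i X) (K' := fun i => K.obj i Y) (fun _ b x => b • x)
      (fun i j => K.d Y i j) (fun i => K.map φ i) p q) : Kill I P := by
  have hN : IsNoetherianRing (T.R X) := Algebra.FiniteType.isNoetherianRing ℂ (T.R X)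
  refine kill_of_primes P hp.flat I fun J hJ hIJ => ?_
  obtain ⟨h, hh, Y, ρ, hY, h1, h2, h3⟩ : ∃ h : T.R X, h ∉ J ∧ ∃ (Y : T.C) (ρ : X ⟶ Y),
      GmAt (T.toT s) Y ∧ (∀ a, T.res ρ a = 0 ↔ a ∈ J) ∧ IsUnit (T.res ρ h) ∧
      ∀ b, ∃ (a : T.R X) (n : ℕ), b * T.res ρ h ^ n = T.res ρ a := hI J hJ hIJ
  obtain ⟨u, hu⟩ := exists_loc (T.res ρ).toRingHom J h h1 h2 h3
  obtain ⟨q, hq⟩ := hq Y ρ
  refine ⟨h, hh, T.R Y, inferInstance, Module.compHom (T.R Y) (T.res ρ).toRingHom, u, hu, ?_⟩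
  exact acyclic_tens (K := K) ρ (acyclic_gm hs hK hY) P
    (Br.mkLin P (K := fun i => K.obj i X) (fun i j => K.d X i j) p hp) hp.comm
    (Br.bc_aux (T.res ρ).toRingHom P (K := fun i => K.obj i X) (K' := fun i => K.obj i Y)
      (fun i j => K.d Y i j) (fun i => K.map ρ i)
      (Br.mkLin P (K := fun i => K.obj i X) (fun i j => K.d X i j) p hp) hq
      (fun i a x => by simp [TCx.map, TDMod.map_smul]))

theorem killg : KILLG := fun S h hs K hK X I hI P p hp hq =>
  kill_site (T := site S h) (s := S.s) hs (K := (Br.Ec (site S h) S.s).obj K) (Br.cart_E hK) X I hI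
    P p hp hq

end

end Vale.Agent.P286ER1
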