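import Vale.Agent.P286.H527.HIsoL

/-!
# Complexes of flat modules which kill the torsion modules
-/

namespace Vale.Agent.P286ER1

open Vale.Agent.P286 Vale.Agent.P286.MCx TensorProduct

variable {A : Type} [CommRing A]

/-- Every element of `N` is killed by a power of each element of `I`. -/
def Tors (I : Set A) (N : Type) [AddCommGroup N] [Module A N] : Prop :=
  ∀ a ∈ I, ∀ x : N, ∃ n : ℕ, a ^ n • x = 0

/-- The complex `N ⊗ P` is acyclic for all `I`-torsion modules `N`. -/
def Kill (I : Set A) (P : MCx A) : Prop :=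
  ∀ (N : Type) [AddCommGroup N] [Module A N], Tors I N → (P.tens N).Acyclic

section

variable {I : Set A} {N N' : Type} [AddCommGroup N] [Module A N] [AddCommGroup N'] [Module A N']

theorem Tors.of_inj (h : Tors I N) (u : N' →ₗ[A] N) (hu : Function.Injective u) : Tors I N' := by
  intro a ha x
  obtain ⟨n, hn⟩ := h a ha (u x)
  exact ⟨n, hu (by rw [map_smul, hn, map_zero])⟩

theorem Tors.of_surj (h : Tors I N) (u : N →ₗ[A] N') (hu : Function.Surjective u) : Tors I N' := by
  intro a ha x
  obtain ⟨x, rfl⟩ := hu x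
  obtain ⟨n, hn⟩ := h a ha x
  exact ⟨n, by rw [← map_smul, hn, map_zero]⟩

theorem Tors.mono {J : Set A} (h : Tors I N) (hJ : J ⊆ I) : Tors J N := fun a ha => h a (hJ ha)

theorem Tors.insert {a : A} (h : Tors I N) (ha : ∀ x : N, ∃ n : ℕ, a ^ n • x = 0) :
    Tors (insert a I) N := by
  rintro b (rfl | hb)
  · exact ha
  · exact h b hb

theorem Kill.mono {J : Set A} {P : MCx A} (h : Kill I P) (hJ : I ⊆ J) : Kill J P :=
  fun N _ _ hN => h N (hN.mono hJ)

end

theorem acyclic_mid {C' C C'' : MCx A} {α : ∀ i, C'.X i →ₗ[A] C.X i}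
    {β : ∀ i, C.X i →ₗ[A] C''.X i} (h : SES C' C C'' α β) (h' : C'.Acyclic) (h'' : C''.Acyclic) :
    C.Acyclic :=
  (h.hBij (h'.hBij 0) (h''.hBij 0)).acyclic fun _ z => zero_smul A z

theorem acyclic_of_equiv {C D : MCx A} (e : ∀ i, C.X i ≃ₗ[A] D.X i)
    (he : ∀ i j x, e j (C.d i j x) = D.d i j (e i x)) (h : C.Acyclic) : D.Acyclic :=
  (HBij.of_equiv e he (h.hBij 0)).acyclic fun _ z => zero_smul A z

theorem tens_comm (P : MCx A) {M N : Type} [AddCommGroup M] [Module A M] [AddCommGroup N]
    [Module A N] (u : M →ₗ[A] N) (i j : ℤ) (x : M ⊗[A] P.X i) :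
    LinearMap.rTensor (P.X j) u (LinearMap.lTensor M (P.d i j) x) =
      LinearMap.lTensor N (P.d i j) (LinearMap.rTensor (P.X i) u x) :=
  LinearMap.congr_fun ((LinearMap.rTensor_comp_lTensor _ u (P.d i j)).trans
    (LinearMap.lTensor_comp_rTensor _ u (P.d i j)).symm) x

theorem acyclic_tens_equiv {P : MCx A} {M N : Type} [AddCommGroup M] [Module A M] [AddCommGroup N]
    [Module A N] (e : M ≃ₗ[A] N) (h : (P.tens M).Acyclic) : (P.tens N).Acyclic :=
  acyclic_of_equiv (C := P.tens M) (D := P.tens N) (fun i => LinearEquiv.rTensor (P.X i) e)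
    (fun i j x => tens_comm P e.toLinearMap i j x) h

theorem Kill.acyclic {P : MCx A} (h : Kill ∅ P) : P.Acyclic := by
  refine acyclic_of_equiv (C := P.tens A) (fun i => TensorProduct.lid A (P.X i)) ?_
    (h A fun _ ha => absurd ha (Set.notMem_empty _))
  intro i j x
  change TensorProduct.lid A (P.X j) (LinearMap.lTensor _ (P.d i j) x) =
    P.d i j (TensorProduct.lid A (P.X i) x)
  induction x using TensorProduct.induction_on with
  | zero => simp
  | tmul x y => simp
  | add x y hx hy => simp only [map_add, hx, hy]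

/-- The quotients by the ideals whose radical contains `I`. -/
theorem acyclic_quot [IsNoetherianRing A] (P : MCx A) (hP : ∀ i, Module.Flat A (P.X i)) (I : Set A)
    (H : ∀ p : Ideal A, p.IsPrime → I ⊆ p → ∃ h : A, h ∉ p ∧
      ∃ (N : Type) (_ : AddCommGroup N) (_ : Module A N) (u : (A ⧸ p) →ₗ[A] N),
        IsLocalizedModule (Submonoid.powers h) u ∧ (P.tens N).Acyclic)
    (J : Ideal A) : I ⊆ J.radical → (P.tens (A ⧸ J)).Acyclic := by
  induction J using IsNoetherian.induction with
  | hgt J ih =>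
  intro hJ
  change (P.tens (A ⧸ (J : Ideal A))).Acyclic
  have big : ∀ J' : Ideal A, J < J' → (P.tens (A ⧸ J')).Acyclic := fun J' h =>
    ih J' h (hJ.trans (Ideal.radical_mono h.le))
  have sup : ∀ a : A, a ∉ J → J < J ⊔ Ideal.span {a} := fun a ha =>
    lt_of_le_of_ne le_sup_left fun h => ha (by
      rw [h]
      exact Submodule.mem_sup_right (Ideal.mem_span_singleton_self a))
  by_cases hI : Ideal.IsPrime (J : Ideal A)
  · obtain ⟨h, hh, N, _, _, u, hu, hN⟩ := H J hI (by rwa [hI.radical] at hJ)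
    obtain ⟨v, h1, h2, h3⟩ := prime_seq J h hh
    refine acyclic_of_localized u hu (hBij_of_mul (SES.tens hP _ v h1 h2 h3) (fun i x => ?_)
      (big _ (sup h hh))).1 hN
    rw [LinearMap.rTensor_smul, LinearMap.rTensor_id]
    rfl
  · by_cases hT : J = ⊤
    · subst hT
      have : Subsingleton (A ⧸ (⊤ : Ideal A)) := Ideal.Quotient.subsingleton_iff.2 rfl
      exact tens_acyclic_of_subsingleton P _
    · rw [Ideal.isPrime_iff] at hI
      push Not at hI
      obtain ⟨a, b, hab, ha, hb⟩ := hI hT
      obtain ⟨J', hJ', u, v, hu, huv, hv⟩ := quot_seq J b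
      refine acyclic_mid (SES.tens hP u v hu huv hv) (big J' ?_) (big _ (sup b hb))
      refine lt_of_le_of_ne (fun x hx => (hJ' x).2 (Ideal.mul_mem_right _ _ hx)) fun h => ha ?_
      rw [h]
      exact (hJ' a).2 hab

/-- Dévissage: from the generic points of the closed subsets of `V(I)` to all torsion modules. -/
theorem kill_of_primes [IsNoetherianRing A] (P : MCx A) (hP : ∀ i, Module.Flat A (P.X i))
    (I : Set A) (H : ∀ p : Ideal A, p.IsPrime → I ⊆ p → ∃ h : A, h ∉ p ∧
      ∃ (N : Type) (_ : AddCommGroup N) (_ : Module A N) (u : (A ⧸ p) →ₗ[A] N),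
        IsLocalizedModule (Submonoid.powers h) u ∧ (P.tens N).Acyclic) : Kill I P := by
  have fin : ∀ (N : Type) [AddCommGroup N] [Module A N] (hN : Module.Finite A N),
      Tors I N → (P.tens N).Acyclic := by
    intro N _ _ hN
    induction hN using IsNoetherianRing.induction_on_isQuotientEquivQuotientPrime A with
    | subsingleton N => exact fun _ => tens_acyclic_of_subsingleton P N
    | quotient N p f =>
      intro ht
      refine acyclic_tens_equiv f.symm (acyclic_quot P hP I H p.1 fun a ha => ?_)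
      obtain ⟨n, hn⟩ := ht.of_surj f.toLinearMap f.surjective a ha (Submodule.Quotient.mk 1)
      rw [← Submodule.Quotient.mk_smul, Submodule.Quotient.mk_eq_zero, smul_eq_mul, mul_one] at hn
      exact ⟨n, hn⟩
    | exact N₁ N₂ N₃ f g hf hg hfg h₁ h₃ =>
      intro ht
      exact acyclic_mid (SES.tens hP f g hf hfg hg) (h₁ (ht.of_inj f hf)) (h₃ (ht.of_surj g hg))
  intro N _ _ hN i j k hi hj z hz
  obtain ⟨M, hM, y, rfl⟩ := Submodule.exists_fg_le_eq_rTensor_subtype (R := A) (N := N) z
  have hk := hP k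
  have hy : (P.tens M).d j k y = 0 := by
    apply Module.Flat.rTensor_preserves_injective_linearMap (M := P.X k) M.subtype
      M.injective_subtype
    rw [map_zero]
    exact (tens_comm P M.subtype j k y).trans hz
  obtain ⟨w, hw⟩ := fin M (Module.Finite.iff_fg.2 hM) (hN.of_inj M.subtype M.injective_subtype)
    i j k hi hj y hy
  exact ⟨LinearMap.rTensor (P.X i) M.subtype w,
    (tens_comm P M.subtype i j w).symm.trans (congrArg _ hw)⟩

end Vale.Agent.P286ER1
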